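import Vale.Agent.P174.Reduce

namespace Vale.Agent.Results.P174.Howie

open Vale.Agent.P174

universe u

/-- Howie's conjecture: every nonsingular finite system of equations over an arbitrary group `G`
is solvable over `G`. -/
theorem result (G : Type u) [Group G] (m n : ℕ)
    (w : Fin m → Monoid.Coprod G (FreeGroup (Fin n)))
    (hw : ((expMatrix w).map (Int.cast : ℤ → ℚ)).rank = m) :
    Function.Injective
        ((QuotientGroup.mk' (Subgroup.normalClosure (Set.range w))).comp Monoid.Coprod.inl) ∧
      ∃ (H : Type u) (_ : Group H) (f : G →* H) (h : Fin n → H), Function.Injective f ∧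
        ∀ i, Monoid.Coprod.lift f (FreeGroup.lift h) (w i) = 1 := by
  have hinj : Function.Injective
      ((QuotientGroup.mk' (Subgroup.normalClosure (Set.range w))).comp Monoid.Coprod.inl) :=
    (injective_iff_map_eq_one _).2 fun g hg => howie w hw g ((QuotientGroup.eq_one_iff _).1 hg)
  refine ⟨hinj, _, inferInstance, _, fun j => QuotientGroup.mk' (Subgroup.normalClosure
    (Set.range w)) (Monoid.Coprod.inr (FreeGroup.of j)), hinj, fun i => ?_⟩
  have : Monoid.Coprod.lift ((QuotientGroup.mk' (Subgroup.normalClosure (Set.range w))).comp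
      Monoid.Coprod.inl) (FreeGroup.lift fun j => QuotientGroup.mk' (Subgroup.normalClosure
      (Set.range w)) (Monoid.Coprod.inr (FreeGroup.of j))) =
      QuotientGroup.mk' (Subgroup.normalClosure (Set.range w)) := by
    refine Monoid.Coprod.hom_ext ?_ ?_
    · ext1 x; simp
    · ext1 j; simp
  rw [this]
  exact (QuotientGroup.eq_one_iff _).2 (Subgroup.subset_normalClosure (Set.mem_range_self i))

end Vale.Agent.Results.P174.Howie
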