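import Vale.Agent.P174b.Main

namespace Vale.Agent.Results.P174.HowieB

open Vale.Agent.P174b

universe u

theorem result {G : Type u} [Group G] (m n : ℕ) (w : Fin m → Monoid.Coprod G (FreeGroup (Fin n)))
    (hA : (Matrix.of fun (i : Fin m) (j : Fin n) =>
      (((expSum G (Fin n) (w i)).toAdd j : ℤ) : ℚ)).rank = m) :
    Function.Injective
      ((QuotientGroup.mk' (Subgroup.normalClosure (Set.range w))).comp Monoid.Coprod.inl) := by
  rw [injective_iff_map_eq_one]
  intro g hg
  exact howie m n w hA g ((QuotientGroup.eq_one_iff _).1 hg)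

end Vale.Agent.Results.P174.HowieB
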